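import Mathlib

/-!
# Circulant Hadamard matrices: the half-shift product sequence has no proper period

Core computation with sequences indexed by natural numbers.
-/

namespace Vale.Agent.Lib.P033

open Finset

/-- A product of signs is a sign. -/
theorem prod_sign (q : ℕ) (x : ℕ → ℤ) (hx : ∀ k, x k = 1 ∨ x k = -1) :
    (∏ k ∈ range q, x k) = 1 ∨ (∏ k ∈ range q, x k) = -1 := by
  induction q with
  | zero => simp
  | succ q ih =>
    rw [prod_range_succ]
    rcases ih with h | h <;> rcases hx q with h' | h' <;> simp [h, h']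

/-- The sum of `q` signs is congruent to `q + 1 - (their product)` modulo `4`. -/
theorem sign_sum_mod_four (q : ℕ) (x : ℕ → ℤ) (hx : ∀ k, x k = 1 ∨ x k = -1) :
    (4 : ℤ) ∣ (∑ k ∈ range q, x k) - ((q : ℤ) + 1 - ∏ k ∈ range q, x k) := by
  induction q with
  | zero => simp
  | succ q ih =>
    rw [sum_range_succ, prod_range_succ]
    obtain ⟨c, hc⟩ := ih
    rcases prod_sign q x hx with h | h <;> rcases hx q with h' | h'
    · exact ⟨c, by rw [h, h']; rw [h] at hc; push_cast; linarith⟩
    · exact ⟨c - 1, by rw [h, h']; rw [h] at hc; push_cast; linarith⟩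
    · exact ⟨c, by rw [h, h']; rw [h] at hc; push_cast; linarith⟩
    · exact ⟨c, by rw [h, h']; rw [h] at hc; push_cast; linarith⟩

/-- Splitting a sum over `range (g * K)` into residue classes modulo `g`. -/
theorem sum_range_mul_split (g K : ℕ) (F : ℕ → ℤ) :
    ∑ i ∈ range (g * K), F i = ∑ r ∈ range g, ∑ k ∈ range K, F (r + g * k) := by
  induction K with
  | zero => simp
  | succ K ih =>
    rw [Nat.mul_succ, sum_range_add, ih, ← sum_add_distrib]
    refine sum_congr rfl fun r _ => ?_
    rw [sum_range_succ]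
    congr 2
    ring

end Vale.Agent.Lib.P033

namespace Vale.Agent.Lib.P033

open Finset

/-- Telescoping product of consecutive products of signs along an arithmetic progression. -/
theorem prod_telescope (g r : ℕ) (b : ℕ → ℤ) (hb : ∀ i, b i = 1 ∨ b i = -1) (q : ℕ) :
    ∏ k ∈ range q, (b (r + g * k) * b (r + g * k + g)) = b r * b (r + g * q) := by
  induction q with
  | zero =>
    simp only [range_zero, prod_empty, Nat.mul_zero, Nat.add_zero]
    rcases hb r with h | h <;> simp [h]
  | succ q ih =>
    rw [prod_range_succ, ih]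
    have e : r + g * q + g = r + g * (q + 1) := by ring
    rw [e]
    rcases hb (r + g * q) with h | h <;> simp [h]

/-- Core statement for sign sequences indexed by natural numbers:
`b` has period `n = 2 * (g * q)`, all its nontrivial periodic autocorrelations vanish, and the
half-shift product `i ↦ b i * b (i + g * q)` is `g`-periodic with `q ≥ 2`. Then `8 ∣ g * q`
and `4 ∣ g`. -/
theorem core (g q : ℕ) (hq : 2 ≤ q) (hg : 0 < g) (b : ℕ → ℤ)
    (hb : ∀ i, b i = 1 ∨ b i = -1)
    (hperb : ∀ i, b (i + 2 * (g * q)) = b i)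
    (hP : ∀ t, 0 < t → t < 2 * (g * q) → ∑ i ∈ range (2 * (g * q)), b i * b (i + t) = 0)
    (hd : ∀ i, b (i + g) * b (i + g + g * q) = b i * b (i + g * q)) :
    (8 : ℤ) ∣ ((g * q : ℕ) : ℤ) ∧ (4 : ℤ) ∣ (g : ℤ) := by
  set m := g * q with hm
  have hmpos : 0 < m := Nat.mul_pos hg (by omega)
  have hgm : g < m := by
    have : g * 2 ≤ g * q := Nat.mul_le_mul_left g hq
    omega
  have hsq : ∀ i, b i * b i = 1 := fun i => by rcases hb i with h | h <;> simp [h]
  -- the half-shift product and the g-shift product
  set d : ℕ → ℤ := fun i => b i * b (i + m) with hd_def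
  set T : ℕ → ℤ := fun i => b i * b (i + g) with hT_def
  have hdsign : ∀ i, d i = 1 ∨ d i = -1 := fun i => by
    simp only [hd_def]
    rcases hb i with h | h <;> rcases hb (i + m) with h' | h' <;> simp [h, h']
  have hdsq : ∀ i, d i * d i = 1 := fun i => by rcases hdsign i with h | h <;> simp [h]
  have hdg : ∀ i, d (i + g) = d i := fun i => hd i
  have hdm : ∀ i, d (i + m) = d i := fun i => by
    simp only [hd_def]
    have : i + m + m = i + 2 * m := by ring
    rw [this, hperb i]; ring
  have hdgk : ∀ r k, d (r + g * k) = d r := by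
    intro r k
    induction k with
    | zero => simp
    | succ k ih =>
      have : r + g * (k + 1) = r + g * k + g := by ring
      rw [this, hdg, ih]
  have hbm : ∀ i, b (i + m) = b i * d i := fun i => by
    simp only [hd_def]
    rw [← mul_assoc, hsq, one_mul]
  have hTm : ∀ i, T (i + m) = T i := fun i => by
    simp only [hT_def]
    have e : i + m + g = i + g + m := by ring
    rw [e, hbm i, hbm (i + g), hdg i]
    have := hdsq i
    linear_combination (b i * b (i + g)) * this
  -- the three autocorrelation identities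
  have F1 : ∑ i ∈ range (2 * m), T i = 0 := hP g hg (by omega)
  have F2 : ∑ i ∈ range (2 * m), T i * d i = 0 := by
    have h := hP (g + m) (by omega) (by omega)
    rw [← h]
    refine sum_congr rfl fun i _ => ?_
    simp only [hT_def]
    have e : i + (g + m) = i + g + m := by ring
    rw [e, hbm (i + g), hdg i]; ring
  have F3 : ∑ i ∈ range (2 * m), d i = 0 := hP m hmpos (by omega)
  -- decomposition into residue classes
  set U : ℕ → ℤ := fun r => ∑ k ∈ range q, T (r + g * k) with hU_def
  have hn : 2 * m = g * (q + q) := by rw [hm]; ring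
  have split : ∀ F : ℕ → ℤ, ∑ i ∈ range (2 * m), F i
      = ∑ r ∈ range g, (∑ k ∈ range q, F (r + g * k) + ∑ k ∈ range q, F (r + g * k + m)) := by
    intro F
    rw [hn, sum_range_mul_split]
    refine sum_congr rfl fun r _ => ?_
    rw [sum_range_add]
    congr 1
    refine sum_congr rfl fun k _ => ?_
    congr 1
    rw [hm]; ring
  have G1 : ∑ r ∈ range g, U r = 0 := by
    have h := split T
    rw [F1] at h
    have h2 : ∑ r ∈ range g, (∑ k ∈ range q, T (r + g * k) + ∑ k ∈ range q, T (r + g * k + m))
        = 2 * ∑ r ∈ range g, U r := by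
      rw [mul_sum]
      refine sum_congr rfl fun r _ => ?_
      simp only [hU_def]
      rw [two_mul]
      congr 1
      exact sum_congr rfl fun k _ => hTm _
    rw [h2] at h
    linarith
  have G2 : ∑ r ∈ range g, d r * U r = 0 := by
    have h := split (fun i => T i * d i)
    rw [F2] at h
    have h2 : ∑ r ∈ range g, (∑ k ∈ range q, T (r + g * k) * d (r + g * k)
          + ∑ k ∈ range q, T (r + g * k + m) * d (r + g * k + m))
        = 2 * ∑ r ∈ range g, d r * U r := by
      rw [mul_sum]
      refine sum_congr rfl fun r _ => ?_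
      simp only [hU_def]
      rw [two_mul, mul_sum]
      congr 1
      · exact sum_congr rfl fun k _ => by rw [hdgk]; ring
      · exact sum_congr rfl fun k _ => by rw [hTm, hdm, hdgk]; ring
    rw [h2] at h
    linarith
  have G3 : ∑ r ∈ range g, d r = 0 := by
    have h := split d
    rw [F3] at h
    have h2 : ∑ r ∈ range g, (∑ k ∈ range q, d (r + g * k) + ∑ k ∈ range q, d (r + g * k + m))
        = (2 * (q : ℤ)) * ∑ r ∈ range g, d r := by
      rw [mul_sum]
      refine sum_congr rfl fun r _ => ?_
      have e1 : ∑ k ∈ range q, d (r + g * k) = (q : ℤ) * d r := by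
        rw [sum_congr rfl fun k _ => hdgk r k]; simp
      have e2 : ∑ k ∈ range q, d (r + g * k + m) = (q : ℤ) * d r := by
        rw [sum_congr rfl fun k _ => (hdm (r + g * k)).trans (hdgk r k)]; simp
      rw [e1, e2]; ring
    rw [h2] at h
    have hq0 : (2 * (q : ℤ)) ≠ 0 := by
      have : (0 : ℤ) < q := by exact_mod_cast (by omega : 0 < q)
      linarith
    rcases mul_eq_zero.mp h.symm with h' | h'
    · exact absurd h' hq0
    · exact h'
  -- the product of the T's over a half class equals d
  have hprod : ∀ r, ∏ k ∈ range q, T (r + g * k) = d r := by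
    intro r
    simp only [hT_def, hd_def]
    rw [prod_telescope g r b hb q]
  have hTsign : ∀ i, T i = 1 ∨ T i = -1 := fun i => by
    simp only [hT_def]
    rcases hb i with h | h <;> rcases hb (i + g) with h' | h' <;> simp [h, h']
  have hmod : ∀ r, (4 : ℤ) ∣ U r - ((q : ℤ) + 1 - d r) := by
    intro r
    have := sign_sum_mod_four q (fun k => T (r + g * k)) (fun k => hTsign _)
    rw [hprod r] at this
    exact this
  -- the two congruences modulo 8
  have hplus : ∀ r, (8 : ℤ) ∣ (1 + d r) * (U r - ((q : ℤ) + 1 - d r)) := by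
    intro r
    obtain ⟨c, hc⟩ := hmod r
    rcases hdsign r with h | h
    · exact ⟨c, by rw [hc, h]; ring⟩
    · exact ⟨0, by rw [h]; ring⟩
  have hminus : ∀ r, (8 : ℤ) ∣ (1 - d r) * (U r - ((q : ℤ) + 1 - d r)) := by
    intro r
    obtain ⟨c, hc⟩ := hmod r
    rcases hdsign r with h | h
    · exact ⟨0, by rw [h]; ring⟩
    · exact ⟨c, by rw [hc, h]; ring⟩
  have S1 : ∑ r ∈ range g, (1 + d r) * (U r - ((q : ℤ) + 1 - d r)) = -((g : ℤ) * q) := by
    have e : ∀ r ∈ range g, (1 + d r) * (U r - ((q : ℤ) + 1 - d r))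
        = U r + d r * U r - (q : ℤ) * d r - (q : ℤ) + (d r * d r - 1) := fun r _ => by ring
    rw [sum_congr rfl e]
    simp only [sum_add_distrib, sum_sub_distrib, hdsq, sub_self, add_zero]
    rw [G1, G2, ← mul_sum, G3]
    simp only [sum_const, card_range, nsmul_eq_mul]
    ring
  have S2 : ∑ r ∈ range g, (1 - d r) * (U r - ((q : ℤ) + 1 - d r))
      = -((g : ℤ) * q) - 2 * (g : ℤ) := by
    have e : ∀ r ∈ range g, (1 - d r) * (U r - ((q : ℤ) + 1 - d r))
        = U r - d r * U r + ((q : ℤ) + 2) * d r - ((q : ℤ) + 2) - (d r * d r - 1) := fun r _ => by ring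
    rw [sum_congr rfl e]
    simp only [sum_add_distrib, sum_sub_distrib, hdsq, sub_self, sub_zero]
    rw [G1, G2, ← mul_sum, G3]
    simp only [sum_const, card_range, nsmul_eq_mul]
    ring
  have D1 : (8 : ℤ) ∣ -((g : ℤ) * q) := by
    rw [← S1]; exact dvd_sum fun r _ => hplus r
  have D2 : (8 : ℤ) ∣ -((g : ℤ) * q) - 2 * (g : ℤ) := by
    rw [← S2]; exact dvd_sum fun r _ => hminus r
  have D1' : (8 : ℤ) ∣ (g : ℤ) * q := (dvd_neg.mp D1)
  refine ⟨by rw [hm]; push_cast; exact D1', ?_⟩
  have D3 : (8 : ℤ) ∣ 2 * (g : ℤ) := by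
    have := dvd_sub D1 D2
    have e : -((g : ℤ) * q) - (-((g : ℤ) * q) - 2 * (g : ℤ)) = 2 * (g : ℤ) := by ring
    rwa [e] at this
  obtain ⟨c, hc⟩ := D3
  exact ⟨c, by linarith⟩

end Vale.Agent.Lib.P033
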